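import Vale.Agent.P067.Alg.Close
import Vale.Agent.P067.Link.Opp

namespace Vale.Agent.Results.P067.BoundedDegreeExpanders

open Vale.Agent.P067

/-- Bounded-degree coboundary expanders exist in every dimension. -/
theorem result :
    ∀ d : ℕ, 1 ≤ d → ∃ D : ℕ, ∃ ε : ℝ, 0 < ε ∧ ∀ N : ℕ, ∃ n ≥ N,
      ∃ F : Finset (Finset (Fin n)),
        IsPure F d ∧ IsConn F ∧ DegreeAtMost F D ∧ IsExpander F d ε :=
  main_of_opp Link.opp_ok

end Vale.Agent.Results.P067.BoundedDegreeExpanders
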