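import Mathlib
import Vale.Agent.P067.Bound

namespace Vale.Agent.Results.P067.TopBettiBound

open Vale.Agent.P067

/-- Bounded-degree coboundary expanders have polynomially large top cohomology. -/
theorem result : ∀ (d D : ℕ), 1 ≤ d → ∀ ε : ℝ, 0 < ε → ∃ C K : ℕ,
    ∀ (n : ℕ) (F : Finset (Finset (Fin n))),
      IsPure F d → DegreeAtMost F D → IsExpander F d ε → n ≤ C * (topBetti F d + 1) ^ K :=
  betti_bound

end Vale.Agent.Results.P067.TopBettiBound
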